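import Crest.Agent.X212.Flo2.Cut

/-!
# Row 212, ALG-7 (helper56): a realisation uses countably many cells

`ev K` : the filter of the large countable parts of a skeleton.  Every notion that holds in `K.clo` holds in
`(K.cut A).clo` for large `A`.
-/

set_option autoImplicit false
set_option linter.unusedSectionVars false

open Set Function Filter

noncomputable section

universe u

namespace Crest.Agent.X212.Sub56

open Flo2 Flo2.Sk Bor5.T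

theorem exists_clo {X : Type*} {g : X → Set X} (hg : ∀ x, (g x).Countable) {s : Set X} (hs : s.Countable) :
    ∃ t, s ⊆ t ∧ t.Countable ∧ ∀ x ∈ t, g x ⊆ t := by
  let w : ℕ → Set X := fun n => Nat.rec s (fun _ t => ⋃ x ∈ t, g x) n
  refine ⟨⋃ n, w n, subset_iUnion w 0, countable_iUnion fun n => ?_, fun x hx y hy => ?_⟩
  · induction n with
    | zero => exact hs
    | succ n ih => exact ih.biUnion fun x _ => hg x
  · obtain ⟨n, hn⟩ := mem_iUnion.1 hx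
    exact mem_iUnion.2 ⟨n + 1, mem_biUnion hn hy⟩

variable {K : Sk.{u}}

variable (K) in
/-- the large countable parts -/
def ev : Filter K.Sub where
  sets := {s | ∃ (E : Set K.E) (F : Set (Σ a b, K.F a b)), E.Countable ∧ F.Countable ∧
    ∀ A : K.Sub, E ⊆ A.E → F ⊆ A.F → A ∈ s}
  univ_sets := ⟨∅, ∅, countable_empty, countable_empty, fun _ _ _ => trivial⟩
  sets_of_superset := fun ⟨E, F, a, b, c⟩ h => ⟨E, F, a, b, fun A x y => h (c A x y)⟩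
  inter_sets := fun ⟨E, F, a, b, c⟩ ⟨E', F', a', b', c'⟩ => ⟨E ∪ E', F ∪ F', a.union a', b.union b',
    fun A x y => ⟨c A (subset_union_left.trans x) (subset_union_left.trans y),
      c' A (subset_union_right.trans x) (subset_union_right.trans y)⟩⟩

instance : CountableInterFilter (ev K) := ⟨fun S hS h => by
  choose! E F a b c using h
  exact ⟨⋃ s ∈ S, E s, ⋃ s ∈ S, F s, hS.biUnion a, hS.biUnion b, fun A x y s hs =>
    c s hs A ((subset_biUnion_of_mem (u := E) hs).trans x) ((subset_biUnion_of_mem (u := F) hs).trans y)⟩⟩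

theorem neBot (hC : ∀ a b (σ : K.F a b), Countable (K.C σ)) : (ev K).NeBot := by
  refine ⟨fun h => ?_⟩
  obtain ⟨E, F, a, b, c⟩ : (∅ : Set K.Sub) ∈ ev K := h ▸ mem_bot
  obtain ⟨G, h1, h2, h3⟩ := exists_clo (g := fun σ : Σ a b, K.F a b =>
    ((fun τ => ⟨σ.1, σ.2.1, τ⟩) '' {τ | τ ∈ K.fc σ.2.2} ∪
      (fun p : Σ x, K.F σ.1 x × K.F x σ.2.1 => ⟨σ.1, p.1, p.2.1⟩) '' {p | p ∈ K.nk σ.2.2}) ∪
      ((fun p : Σ x, K.F σ.1 x × K.F x σ.2.1 => ⟨p.1, σ.2.1, p.2.2⟩) '' {p | p ∈ K.nk σ.2.2} ∪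
        range fun c => ⟨(K.cp σ.2.2 c).1, K.one, (K.cp σ.2.2 c).2.2⟩))
    (fun σ => (((List.finite_toSet _).countable.image _).union ((List.finite_toSet _).countable.image _)).union
      (((List.finite_toSet _).countable.image _).union (countable_range _))) b
  have k : ∀ a b σ, ⟨a, b, σ⟩ ∈ G → a ∈ insert K.one E ∪ (Sigma.fst '' G ∪ (fun σ => σ.2.1) '' G) ∧
      b ∈ insert K.one E ∪ (Sigma.fst '' G ∪ (fun σ => σ.2.1) '' G) := fun a b σ h =>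
    ⟨.inr (.inl ⟨_, h, rfl⟩), .inr (.inr ⟨_, h, rfl⟩)⟩
  refine c ⟨insert K.one E ∪ (Sigma.fst '' G ∪ (fun σ => σ.2.1) '' G), G,
    ⋃ σ ∈ G, range fun c => ⟨σ.1, σ.2.1, (K.cp σ.2.2 c).1, (K.cp σ.2.2 c).2.1⟩,
    (a.insert _).union ((h2.image _).union (h2.image _)), h2, h2.biUnion fun _ _ => countable_range _,
    .inl (.inl rfl), k, fun a b x σ h => ?_, fun a b σ h τ t => h3 _ h (.inl (.inl ⟨τ, t, rfl⟩)),
    fun a b σ h p t => ⟨h3 _ h (.inl (.inr ⟨p, t, rfl⟩)), h3 _ h (.inr (.inl ⟨p, t, rfl⟩))⟩,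
    fun a b σ h c => ⟨mem_biUnion h ⟨c, rfl⟩, h3 _ h (.inr (.inr ⟨c, rfl⟩))⟩⟩ (fun x h => .inl (.inr h)) h1
  obtain ⟨⟨a', b', σ'⟩, h4, c, e⟩ := mem_iUnion₂.1 h
  cases e
  exact ⟨(k _ _ _ h4).1, (k _ _ _ h4).2, (k _ _ _ (h3 _ h4 (.inr (.inr ⟨c, rfl⟩)))).1⟩

theorem ev_E (a : K.clo.E) : ∀ᶠ A in ev K, a ∈ A.E :=
  ⟨{a}, ∅, countable_singleton _, countable_empty, fun _ h _ => h rfl⟩

theorem ev_F {a b : K.clo.E} (σ : K.clo.F a b) : ∀ᶠ A in ev K, ⟨a, b, σ⟩ ∈ A.F :=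
  ⟨∅, {_}, countable_empty, countable_singleton _, fun _ _ h => h rfl⟩

theorem ev_all {X : Sort*} [Countable X] {Φ : X → K.Sub → Prop} (h : ∀ x, ∀ᶠ A in ev K, Φ x A) :
    ∀ᶠ A in ev K, ∀ x, Φ x A := eventually_countable_forall.2 h

theorem ev_imp {H : Prop} {Φ : K.Sub → Prop} (h : H → ∀ᶠ A in ev K, Φ A) : ∀ᶠ A in ev K, H → Φ A := ev_all h

theorem cnt {a b : K.clo.E} {I : Type} {f : I → K.clo.F a b} (h : K.clo.Prp f) : Countable I := by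
  obtain ⟨β, h, D, k⟩ := h
  refine countable_univ_iff.1 ((countable_iUnion fun n : ℕ => (k n).countable).mono fun i _ => ?_)
  obtain ⟨n, hn⟩ := exists_nat_ge (∑ e ∈ D, |K.clo.prB (f i) (h i) e|)
  exact mem_iUnion.2 ⟨n, fun e he =>
    (Finset.single_le_sum (f := fun e => |K.clo.prB (f i) (h i) e|) (fun _ _ => abs_nonneg _) he).trans hn⟩

section basic

variable {A : K.Sub} {a b c x : K.clo.E} {σ τ : K.clo.F a b} {l : List (K.F a b)}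
  {n : List (Σ x, K.F a x × K.F x b)}

theorem fc_eq (h : ⟨a, b, σ⟩ ∈ A.F) : (K.cut A).fc σ = K.fc σ := if_pos h

theorem nk_eq (h : ⟨a, b, σ⟩ ∈ A.F) : (K.cut A).nk σ = K.nk σ := if_pos h

open Classical in
theorem pt (h : K.clo.Pt σ) : (K.cut A).clo.Pt σ :=
  ⟨ite_eq_right_iff.2 fun _ => h.fc, ite_eq_right_iff.2 fun _ => h.nk, ⟨fun c => h.cp.elim c.1⟩⟩

theorem bd0 (k : ⟨a, b, σ⟩ ∈ A.F) (h : K.Bd σ l n) : (K.cut A).Bd σ l n :=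
  ⟨(fc_eq k).symm ▸ h.fc, (nk_eq k).symm ▸ h.nk, ⟨fun c => h.cp.elim c.1⟩⟩

theorem bd (k : ⟨a, b, σ⟩ ∈ A.F) (h : K.clo.Bd σ l n) : (K.cut A).clo.Bd σ l n :=
  let ⟨p, q, r⟩ := bd0 k ⟨h.fc, h.nk, h.cp⟩; ⟨p, q, r⟩

theorem qhs (h : K.clo.qhs a) : ∀ᶠ A in ev K, (K.cut A).clo.qhs a := (ev_E a).mono fun _ k => ⟨k, h⟩

theorem tp {r : ℚ} (h : K.clo.tp σ r) : ∀ᶠ A in ev K, (K.cut A).clo.tp σ r := (ev_F σ).mono fun _ k => ⟨k, h⟩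

theorem idn {σ : K.clo.F a a} (h : K.clo.idn σ) : ∀ᶠ A in ev K, (K.cut A).clo.idn σ :=
  (ev_F σ).mono fun _ k => ⟨k, h⟩

theorem hi1 (h : K.clo.hi1 σ) : ∀ᶠ A in ev K, (K.cut A).clo.hi1 σ := by
  rcases h with h | ⟨h1, h2, ρ, τ, l, h3, h4, h5⟩
  · exact (ev_F σ).mono fun _ k => .inl ⟨k, h⟩
  · filter_upwards [ev_E a, ev_E b, ev_F ρ, ev_F τ] with A k1 k2 k3 k4
    exact .inr ⟨⟨k1, h1⟩, ⟨k2, h2⟩, ρ, τ, l, bd0 k3 h3, ⟨k4, h4⟩, h5⟩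

theorem hi0 (h : K.clo.hi0 σ) : ∀ᶠ A in ev K, (K.cut A).clo.hi0 σ := by
  rcases h with h | ⟨h1, h2, ρ, l, h3, h4⟩
  · exact .of_forall fun _ => .inl h
  · filter_upwards [ev_E a, ev_E b, ev_F ρ] with A k1 k2 k3
    exact .inr ⟨⟨k1, h1⟩, ⟨k2, h2⟩, ρ, l, bd0 k3 h3, h4⟩

theorem capI {L : K.F3 a b x} {Q : K.F x K.one} (h : K.clo.CapI σ τ L Q) :
    ∀ᶠ A in ev K, (K.cut A).clo.CapI σ τ L Q :=
  let ⟨h1, h2, c, h3, h4⟩ := h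
  (ev_F σ).mono fun _ k => ⟨(fc_eq k).trans h1, (nk_eq k).trans h2, ⟨c, k⟩, fun c' => Subtype.ext (h3 c'.1), h4⟩

theorem htp (h : K.clo.Htp σ τ) : ∀ᶠ A in ev K, (K.cut A).clo.Htp σ τ := by
  induction h with
  | refl h => exact .of_forall fun _ => .refl (pt h)
  | step ρ τ' τ'' _ h1 h2 ih =>
    filter_upwards [ih, ev_F ρ] with A k1 k2 using Htp.step (S := (K.cut A).clo) ρ τ' τ'' k1 (pt h1) (bd k2 h2)

theorem cmp {τ : K.clo.F a c} {τ₁ : K.clo.F a b} {τ₂ : K.clo.F b c} (h : K.clo.Cmp τ τ₁ τ₂) :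
    ∀ᶠ A in ev K, (K.cut A).clo.Cmp τ τ₁ τ₂ := by
  obtain ⟨ρ, ρ', ρ₁, ρ₂, h1, h2, h3, h4⟩ := h
  filter_upwards [htp h1, htp h2, htp h3, ev_F ρ] with A k1 k2 k3 k4 using ⟨ρ, ρ', ρ₁, ρ₂, k1, k2, k3, bd k4 h4⟩

theorem kil {u : K.clo.UD a} (h : Kil u σ) :
    ∀ᶠ A in ev K, ∀ u' : (K.cut A).clo.UD a, u'.U = u.U → Kil u' σ := by
  induction h with
  | base σ τ h1 h2 => exact (htp h1).mono fun A k _ _ => Kil.base (S := (K.cut A).clo) σ τ k h2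
  | step σ τ h1 _ ih =>
    filter_upwards [cmp h1, ih] with A k1 k2 u' e using Kil.step (S := (K.cut A).clo) σ τ (e ▸ k1) (k2 u' e)

theorem nz {Q : K.F x K.one} (h : K.clo.Nz Q) : ∀ᶠ A in ev K, (K.cut A).clo.Nz Q := by
  obtain ⟨a, b, σ, τ, L, h1, h2, h3, h4⟩ := h
  filter_upwards [qhs h1, qhs h2, capI h3, hi1 h4] with A k1 k2 k3 k4 using ⟨a, b, σ, τ, L, k1, k2, k3, k4⟩

theorem ud [Countable (K.L a)] (u : K.clo.UD a) : ∀ᶠ A in ev K, ∃ u' : (K.cut A).clo.UD a, u'.U = u.U := by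
  filter_upwards [ev_all fun c : K.L a => (hi1 (u.al c).1).and (ev_F (u.U c))] with A k
  exact ⟨⟨u.U, fun c => pt (u.pt c), u.s, u.t, fun c => ⟨(k c).2, u.tp c⟩,
    fun c => ⟨(k c).1, fun h => ⟨(k c).2, (u.al c).2 h⟩⟩⟩, rfl⟩

end basic

section data

variable (A : K.Sub) {a b c : K.clo.E}

/-- arrows -/
def arr (f : K.clo.Arr a b) : (K.cut A).clo.Arr a b := ⟨f.I, f.f, fun i => pt (f.pt i), f.prp⟩

/-- caps -/
def cap (N : K.clo.Cap) : (K.cut A).clo.Cap := ⟨N.x, N.thin, N.B, N.J1, N.J2, N.g1, N.g2, N.p1, N.p2⟩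

variable {f : K.clo.Arr a b} {g : K.clo.Arr b c} {h : K.clo.Arr c a}

/-- the cells of a double composite lie in `A` -/
def DIn (D : Dbl f g) : Prop := ∀ j, ⟨a, c, D.h j⟩ ∈ A.F ∧ ⟨a, c, D.γ j⟩ ∈ A.F

theorem din (D : Dbl f g) : ∀ᶠ A in ev K, DIn A D :=
  have := cnt D.pp
  ev_all fun _ => (ev_F _).and (ev_F _)

variable {A} in
/-- double composites -/
def dbl (D : Dbl f g) (k : DIn A D) : Dbl (arr A f) (arr A g) :=
  ⟨D.J, D.e, D.p, D.h, D.γ, D.r, D.rr, D.half, D.hr, fun j => bd (k j).1 (D.bh j), fun j => bd (k j).2 (D.bγ j),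
    D.sγ, D.tγ, D.pp, D.ph, D.pγ⟩

variable {D0 : Dbl f g} {D1 : Dbl g h} {N : K.clo.Cap} {T : f.I → g.I → h.I → Prop}

/-- the cells of a pentagon lie in `A` -/
def PIn (P : Pen D0 D1 N T) : Prop :=
  (∀ k, (⟨a, a, P.Q k⟩ ∈ A.F ∧ ⟨a, a, P.S1 k⟩ ∈ A.F ∧ ⟨a, a, P.S2 k⟩ ∈ A.F) ∧
    ⟨a, a, P.R1 k⟩ ∈ A.F ∧ ⟨a, a, P.R2 k⟩ ∈ A.F) ∧ ∀ i, ⟨a, a, P.κ i⟩ ∈ A.F

theorem pin (P : Pen D0 D1 N T) : ∀ᶠ A in ev K, PIn A P :=
  have := cnt P.prp.1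
  have := P.f0
  (ev_all fun _ => ((ev_F _).and ((ev_F _).and (ev_F _))).and ((ev_F _).and (ev_F _))).and (ev_all fun _ => ev_F _)

variable {A}

/-- the lifts of caps -/
def sg {X : Type} {σ : X → K.F a a} (k : ∀ x, ⟨a, a, σ x⟩ ∈ A.F) :
    (Σ x, (K.cut A).clo.C (σ x)) ≃ Σ x, K.clo.C (σ x) :=
  Equiv.sigmaCongrRight fun x => Equiv.subtypeUnivEquiv fun _ => k x

/-- pentagons -/
def pen (P : Pen D0 D1 N T) (k0 : DIn A D0) (k1 : DIn A D1) (k : PIn A P) :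
    Pen (dbl D0 k0) (dbl D1 k1) (cap A N) T :=
  { P with
    bQ := fun i => bd (k.1 i).1.1 (P.bQ i)
    bS1 := fun i => bd (k.1 i).1.2.1 (P.bS1 i)
    bS2 := fun i => bd (k.1 i).1.2.2 (P.bS2 i)
    bR1 := fun i => ⟨(fc_eq (k.1 i).2.1).symm ▸ (P.bR1 i).1, (nk_eq (k.1 i).2.1).trans (P.bR1 i).2⟩
    bR2 := fun i => ⟨(fc_eq (k.1 i).2.2).symm ▸ (P.bR2 i).1, (nk_eq (k.1 i).2.2).trans (P.bR2 i).2⟩
    β1 := ((sg fun i : {i // D0.half (P.e0 i).1.1} => (k.1 i.1).2.1).subtypeEquiv fun _ => Iff.rfl).trans P.β1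
    c1 := fun θ => P.c1 ⟨⟨θ.1.1, θ.1.2.1⟩, θ.2⟩
    β2 := ((sg fun i : {i // D1.half (P.e1 i).1.2} => (k.1 i.1).2.2).subtypeEquiv fun _ => Iff.rfl).trans P.β2
    c2 := fun θ => P.c2 ⟨⟨θ.1.1, θ.1.2.1⟩, θ.2⟩
    pι := fun i => pt (P.pι i)
    bκ := fun i => ⟨(fc_eq (k.2 i)).trans (P.bκ i).1, (nk_eq (k.2 i)).trans (P.bκ i).2⟩
    β0 := (sg k.2).trans P.β0
    c0 := fun θ => P.c0 ⟨θ.1, θ.2.1⟩ }

theorem pid {P : Pen D0 D1 N} (h : P.Id) : ∀ᶠ A in ev K, ∀ k0 k1 k, (pen (A := A) P k0 k1 k).Id :=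
  have := P.f0
  (ev_all fun i => (idn (h.idn i)).and (tp (h.tp i))).mono fun _ k _ _ _ =>
    ⟨fun i => (k i).1, fun i => (k i).2, h.bij⟩

theorem mdl {P : Pen D0 D1 N} (m : P.Mdl) :
    ∀ᶠ A in ev K, ∀ k0 k1 k, Nonempty (pen (A := A) P k0 k1 k).Mdl := by
  have := cnt P.prp.1
  filter_upwards [pid m.toId, qhs m.qhs, ev_all fun k => (ev_F (P.Γ1 k)).and (ev_F (P.Γ2 k)),
    ev_all fun k => ev_imp fun o => hi1 (m.w1 k o).2.2.1, ev_all fun k => ev_imp fun o => hi1 (m.w2 k o).2.2.1,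
    ev_all fun k => ev_imp (hi0 (σ := P.Γ1 k)), ev_all fun k => ev_imp (hi0 (σ := P.Γ2 k))]
    with A h1 h2 h3 h4 h5 h6 h7 k0 k1 k
  exact ⟨{ m with
    toId := h1 k0 k1 k
    qhs := h2
    dd1 := fun i c => m.dd1 i c.1
    dd2 := fun i c => m.dd2 i c.1
    tp1 := fun i o => (m.tp1 i o).imp fun _ p => ⟨p.1, (h3 i).1, p.2⟩
    tp2 := fun i o => (m.tp2 i o).imp fun _ p => ⟨p.1, (h3 i).2, p.2⟩
    w1 := fun i o => let ⟨p, q, _, r, s⟩ := m.w1 i o; ⟨p, q, h4 i o, ⟨(h3 i).1, r⟩, s⟩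
    w2 := fun i o => let ⟨p, q, _, r, s⟩ := m.w2 i o; ⟨p, q, h5 i o, ⟨(h3 i).2, r⟩, s⟩
    n1 := fun i o p q r s => h6 i (m.n1 i o p q r.2 s)
    n2 := fun i o p q r s => h7 i (m.n2 i o p q r.2 s) }⟩

theorem has (k : N.Has) : ∀ᶠ A in ev K, (cap A N).Has := by
  obtain ⟨a, b, c, f, g, h, D0, D1, P, ⟨m⟩⟩ := k
  filter_upwards [din D0, din D1, pin P, mdl m] with A k0 k1 k k2 using ⟨a, b, c, _, _, _, _, _, _, k2 k0 k1 k⟩

theorem rp {L : Type} {p : L → K.F a b} (k : f.Rp p) : ∀ᶠ A in ev K, (arr A f).Rp p :=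
  let ⟨e, k⟩ := k
  have := cnt f.prp
  have := e.injective.countable
  (ev_all fun d => htp (k d)).mono fun _ q => ⟨e, q⟩

end data

/-- **ALG-7** -/
theorem sub : SubStmt.{u} := fun S K r Q R P hP hC hc => by
  have := neBot hC
  have := fun i j (c : S.κ i j) => hc.1 _ _ (S.cob c)
  have := fun i (c : S.γ i) => hc.2 _ (S.cap c)
  have : ∀ i, Countable (K.L (r.ob i)) := fun i =>
    have := (S.ob i).fin
    (r.lab i).symm.injective.countable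
  obtain ⟨f, g, h, D0, D1, N, Pn, p1, p2, ⟨i0, τ0, p3, p4⟩, p5, p6⟩ := hP
  have := cnt f.prp
  have := cnt h.prp
  choose Dk hk p6 p7 using p6
  have e1 := (ev_all fun i => qhs (r.qhs i)).and (ev_all fun i => ud (r.U i))
  have e2 := ev_all fun i => ev_all fun j => ev_all fun c : S.κ i j => ev_all fun d =>
    show ∀ᶠ A in ev K, ∃ τ, (K.cut A).clo.Cmp τ ((r.U i).U (K.s (r.pt c d))) (r.pt c d) ∧
      (K.cut A).clo.Cmp τ (r.pt c d) ((r.U j).U (K.t (r.pt c d))) from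
    let ⟨τ, a, b⟩ := r.comU c d; ((cmp a).and (cmp b)).mono fun _ k => ⟨τ, k⟩
  have e3 := ev_all fun i => ev_all fun j => ev_all fun c : S.κ i j => ev_all fun c' : S.κ i j =>
    ev_all fun d => ev_all fun d' => ev_imp (htp (σ := r.pt c d) (τ := r.pt c' d'))
  have e4 := ev_all fun i => ev_all fun j => ev_all fun k => ev_all fun c₁ : S.κ i j => ev_all fun c₂ : S.κ j k =>
    ev_all fun c : S.κ i k => ev_all fun d => ev_all fun d₁ => ev_all fun d₂ =>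
      ev_imp (cmp (τ := r.pt c d) (τ₁ := r.pt c₁ d₁) (τ₂ := r.pt c₂ d₂))
  have e5 := ev_all fun i => ev_all fun c : S.κ i i => ev_all fun d => ev_all fun s : K.L (r.ob i) => ev_imp
    fun (⟨τ, a, b, e⟩ : ∃ τ, K.clo.Htp (r.pt c d) τ ∧ K.clo.idn τ ∧ K.s τ = s) =>
      show ∀ᶠ A in ev K, ∃ τ, (K.cut A).clo.Htp (r.pt c d) τ ∧ (K.cut A).clo.idn τ ∧ K.s τ = s from
      ((htp a).and (idn b)).mono fun _ k => ⟨τ, k.1, k.2, e⟩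
  have e6 := ev_all fun i => ev_all fun j => ev_all fun c : S.κ i j => ev_all fun d => ev_all fun x : ℚ => ev_imp
    fun (⟨τ, a, b⟩ : ∃ τ, K.clo.Htp (r.pt c d) τ ∧ K.clo.tp τ x) =>
      show ∀ᶠ A in ev K, ∃ τ, (K.cut A).clo.Htp (r.pt c d) τ ∧ (K.cut A).clo.tp τ x from
      ((htp a).and (tp b)).mono fun _ k => ⟨τ, k⟩
  have e7 := ev_all fun i => ev_all fun j => ev_all fun c : S.κ i j => ev_all fun d => ev_imp
    fun (⟨τ, a, b, e⟩ : ∃ τ, K.clo.Htp (r.pt c d) τ ∧ K.clo.hi1 τ ∧ K.s τ = K.s (r.pt c d)) =>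
      show ∀ᶠ A in ev K, ∃ τ, (K.cut A).clo.Htp (r.pt c d) τ ∧ (K.cut A).clo.hi1 τ ∧ K.s τ = K.s (r.pt c d) from
      ((htp a).and (hi1 b)).mono fun _ k => ⟨τ, k.1, k.2, e⟩
  have e8 := ev_all fun i => ev_all fun j => ev_all fun c : S.κ i j => ev_all fun d => ev_imp
    fun (⟨τ, a, b⟩ : ∃ τ, K.clo.Htp (r.pt c d) τ ∧ K.clo.hi0 τ) =>
      show ∀ᶠ A in ev K, ∃ τ, (K.cut A).clo.Htp (r.pt c d) τ ∧ (K.cut A).clo.hi0 τ from
      ((htp a).and (hi0 b)).mono fun _ k => ⟨τ, k⟩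
  have e9 := ev_all fun i => ev_all fun k => ev_all fun c : S.κ i k => ev_all fun c' : S.κ i k =>
    ev_all fun d => ev_all fun d' => ev_imp
    fun (⟨w, σ, σ', ρ, ρ', L, Q, Q', a1, a2, a3, a4, a5, a6, a7, a8⟩ :
      ∃ (w : K.E) (σ σ' ρ ρ' : K.F (r.ob i) (r.ob k)) (L : K.F3 (r.ob i) (r.ob k) w) (Q Q' : K.F w K.one),
        K.clo.Htp (r.pt c d) ρ ∧ K.clo.Htp (r.pt c' d') ρ' ∧ K.thin w ∧ ¬K.dead w ∧ K.clo.CapI σ ρ L Q ∧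
          K.clo.CapI σ' ρ' L Q' ∧ K.clo.Nz Q ∧ K.clo.Nz Q') =>
      show ∀ᶠ A in ev K, ∃ (w : K.E) (σ σ' ρ ρ' : K.F (r.ob i) (r.ob k)) (L : K.F3 (r.ob i) (r.ob k) w)
        (Q Q' : K.F w K.one), (K.cut A).clo.Htp (r.pt c d) ρ ∧ (K.cut A).clo.Htp (r.pt c' d') ρ' ∧ K.thin w ∧
          ¬K.dead w ∧ (K.cut A).clo.CapI σ ρ L Q ∧ (K.cut A).clo.CapI σ' ρ' L Q' ∧ (K.cut A).clo.Nz Q ∧
          (K.cut A).clo.Nz Q' from by
        filter_upwards [htp a1, htp a2, capI a5, capI a6, nz a7, nz a8] with A b1 b2 b5 b6 b7 b8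
        exact ⟨w, σ, σ', ρ, ρ', L, Q, Q', b1, b2, a3, a4, b5, b6, b7, b8⟩
  have e10 := ev_all fun i => ev_all fun j => ev_all fun k => ev_all fun c₁ : S.κ i j => ev_all fun c₂ : S.κ j k =>
    ev_imp fun (⟨f, g, h, D0, D1, D2, N, P, P', a1, a2, a3, a4, a5⟩ :
      ∃ (A : K.clo.Arr (r.ob i) (r.ob j)) (B : K.clo.Arr (r.ob j) (r.ob k)) (C : K.clo.Arr (r.ob k) (r.ob i))
        (D0 : Dbl A B) (D1 : Dbl B C) (D2 : Dbl C A) (N : K.clo.Cap) (P : Pen D0 D1 N) (P' : Pen D1 D2 N),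
        A.Rp (r.pt c₁) ∧ B.Rp (r.pt c₂) ∧ N.Has ∧ P.Id ∧ P'.Id) =>
      show ∀ᶠ X in ev K, ∃ (A : (K.cut X).clo.Arr (r.ob i) (r.ob j)) (B : (K.cut X).clo.Arr (r.ob j) (r.ob k))
        (C : (K.cut X).clo.Arr (r.ob k) (r.ob i)) (D0 : Dbl A B) (D1 : Dbl B C) (D2 : Dbl C A)
        (N : (K.cut X).clo.Cap) (P : Pen D0 D1 N) (P' : Pen D1 D2 N),
        A.Rp (r.pt c₁) ∧ B.Rp (r.pt c₂) ∧ N.Has ∧ P.Id ∧ P'.Id from by
        filter_upwards [din D0, din D1, din D2, pin P, pin P', rp a1, rp a2, has a3, pid a4, pid a5]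
          with A k0 k1 k2 k k' b1 b2 b3 b4 b5
        exact ⟨_, _, _, _, _, _, _, _, _, b1, b2, b3, b4 k0 k1 k, b5 k1 k2 k'⟩
  have e11 := ev_all fun i => ev_all fun c : S.γ i => ev_all fun c' : S.γ i => ev_all fun d => ev_all fun d' =>
    ev_all fun h => ev_all fun h' => ev_imp (htp (σ := r.cp c d h) (τ := r.cp c' d' h'))
  have e12 := ev_all fun j => ev_all fun k => ev_all fun c₁ : S.γ j => ev_all fun c₂ : S.κ j k =>
    ev_all fun c : S.γ k => ev_all fun d => ev_all fun d₁ => ev_all fun d₂ => ev_all fun h₁ => ev_all fun h =>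
      ev_imp (cmp (τ := r.cp c d h) (τ₁ := r.cp c₁ d₁ h₁) (τ₂ := r.pt c₂ d₂))
  have e13 := (((din D0).and (din D1)).and ((pin Pn).and (has p1))).and (((htp p3).and (ev_F τ0)).and
    ((ev_all fun k => kil (p5 k)).and (ev_all fun k => htp (p7 k))))
  obtain ⟨A, ⟨⟨⟨q1, q0⟩, q2, q3⟩, ⟨q4, q5⟩, q6, q7⟩, ⟨⟨q8, q9⟩, q10, q11⟩, q12, ⟨⟨k0, k1⟩, k, s1⟩, ⟨s3, s4⟩, s5, s7⟩ :=
    ((((e1.and (e2.and e3))).and ((e4.and e5).and (e6.and e7))).and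
      (((e8.and e9).and (e10.and e11)).and (e12.and e13))).exists
  choose U hU using q0
  exact ⟨A, { r with
    qhs := q1
    U := U
    isPt := fun c d => pt (r.isPt c d)
    comU := fun c d => by rw [hU, hU]; exact q2 _ _ c d
    nat := fun c c' φ d d' a1 a2 a3 => q3 _ _ c c' d d' (r.nat c c' φ d d' a1 a2 a3)
    comp := fun c₁ c₂ c g d d₁ d₂ a1 a2 a3 => q4 _ _ _ c₁ c₂ c d d₁ d₂ (r.comp c₁ c₂ c g d d₁ d₂ a1 a2 a3)
    id := fun c φ d s a1 a2 a3 a4 => q5 _ c d _ (r.id c φ d s a1 a2 a3 a4)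
    deg := fun c d _ _ _ e g Z c₀ x a1 a2 a3 a4 => q6 _ _ c d x (r.deg c d e g Z c₀ x a1 a2 a3 a4)
    tn := fun c d _ _ _ e g Z a1 a2 => q7 _ _ c d (r.tn c d e g Z a1 a2)
    tp := fun c d e a1 a2 => q8 _ _ c d (r.tp c d e a1 a2)
    bu := fun c c' _ _ _ _ _ _ _ _ _ hv hv' f g s s' d d' d₀ a1 a2 a3 a4 a5 a6 a7 =>
      q9 _ _ c c' d d' (r.bu c c' hv hv' f g s s' d d' d₀ a1 a2 a3 a4 a5 a6 a7)
    triad := fun c₁ c₂ c₃ _ _ _ _ f g h a1 a2 a3 a4 => q10 _ _ _ c₁ c₂ (r.triad c₁ c₂ c₃ f g h a1 a2 a3 a4)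
    natc := fun c c' φ d d' a1 a2 a3 =>
      let ⟨h, h', a⟩ := r.natc c c' φ d d' a1 a2 a3; ⟨h, h', q11 _ c c' d d' h h' a⟩
    compc := fun c₁ c₂ c g d d₁ d₂ a1 a2 a3 h₁ h =>
      q12 _ _ c₁ c₂ c d d₁ d₂ h₁ h (r.compc c₁ c₂ c g d d₁ d₂ a1 a2 a3 h₁ h) },
    _, _, _, _, _, _, pen Pn k0 k1 k, s1, p2, ⟨i0, τ0, s3, s4, p4⟩, fun j => s5 j _ (hU _),
    fun j => ⟨Dk j, hk j, p6 j, s7 j⟩⟩

end Crest.Agent.X212.Sub56
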